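import Vale.Agent.P158.Bdl.B1

open Vale.Agent.P158 MeasureTheory

theorem Vale.Agent.Results.P158.NoBigeodesicsAll.result (G : Measure ℝ)
    [IsProbabilityMeasure G] (hG : G (Set.Iio 0) = 0) (hatom : ∀ x, G {x} = 0)
    (Ω : Type*) [MeasurableSpace Ω] (P : Measure Ω) [IsProbabilityMeasure P]
    (t : latt.edgeSet → Ω → ℝ) (ht : ∀ e, Measurable (t e)) (hlaw : ∀ e, P.map (t e) = G)
    (hind : ProbabilityTheory.iIndepFun t P) :
    ∀ᵐ ω ∂P, ∀ v : ℤ → V, ¬ IsBigeodesic (fun e => t e ω) v :=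
  Vale.Agent.P158.C.Fin.no_bigeodesics_all G hG hatom Ω P t ht hlaw hind
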